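import Vale.Agent.P078.Local.Jump.Triangle
import Vale.Agent.P078.Local.Jump.Order

/-!
# The resolvent along `Z + s` (`StmtLine`)

`t = 1/Φ` is concave along `Z + s` with slope `t² I`, by the gradient inequality of the `m`.
-/

namespace Vale.Agent.P078.Local

variable {ι : Type*} [DecidableEq ι] {r : ℕ}
variable {T : Finset ι} {h : ι → Fin r → ℝ} {Z : ι → ℝ} {x : ι → ι → ℂ} {l : ι}

/-- The slope of `t` along `Z + s` is `t² I`. -/
theorem tw_sq_mul_Irow (hl : l ∈ T) (hh : IsLaw T h) (hv : Valid T h Z x) :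
    tw T h Z x l ^ 2 * Irow T h Z x l
      = 1 + ∑ c, h l c * ∑ a ∈ T.erase l, dm T l h c a Z x := by
  have hne := ((hv.erase hh hl).pos (hh.mono (Finset.erase_subset _ _))).ne'
  have ht := (tw_pos hl hh hv).ne'
  rw [Irow, Finset.mul_sum, ← Finset.add_sum_erase T _ hl, W_self hl hh hne]
  congr 1
  · field_simp
  · simp only [Finset.mul_sum]
    rw [Finset.sum_comm (s := Finset.univ)]
    refine Finset.sum_congr rfl fun a ha => ?_
    obtain ⟨hal, haT⟩ := Finset.mem_erase.1 ha
    rw [W_site hl haT hal.symm hh hne ht, mul_div_cancel₀ _ (pow_ne_zero 2 ht)]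

theorem sum_dm_nonneg (hl : l ∈ T) (hh : IsLaw T h) (hx : IsHerm x) (c : Fin r) :
    0 ≤ ∑ a ∈ T.erase l, dm T l h c a Z x :=
  Finset.sum_nonneg fun a ha =>
    dm_nonneg hl (Finset.mem_of_mem_erase ha) (Finset.ne_of_mem_erase ha).symm hh hx c

/-- The secant of a Schur complement along `Z + s` lies between the slopes. -/
theorem m_line (hl : l ∈ T) (hh : IsLaw T h) (hv : Valid T h Z x) {a : ℝ} (ha : 0 ≤ a)
    (c : Fin r) :
    m T l h c Z x - m T l h c (fun u => Z u + a) x ≤ a * ∑ b ∈ T.erase l, dm T l h c b Z x ∧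
    a * ∑ b ∈ T.erase l, dm T l h c b (fun u => Z u + a) x
      ≤ m T l h c Z x - m T l h c (fun u => Z u + a) x := by
  have h1 := hv.erase hh hl
  have h2 := (hv.shift hh ha).erase hh hl
  set D : ι → ℝ := fun b => if b ∈ T then a else 0 with hD
  have hD0 : ∀ b ∉ T, D b = 0 := fun b hb => by simp [hD, hb]
  have hcong : ∀ b ∈ T, Z b + a = Z b + D b := fun b hb => by simp [hD, hb]
  have hm : m T l h c (fun b => Z b + D b) x = m T l h c (fun u => Z u + a) x :=
    m_congr (fun _ _ _ => rfl) (fun b hb _ => (hcong b hb).symm) c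
  have hsum : ∀ (W : ι → ℝ) (k : ℝ), ∑ b ∈ T.erase l, k * D b * dm T l h c b W x
      = k * a * ∑ b ∈ T.erase l, dm T l h c b W x := fun W k => by
    rw [Finset.mul_sum]
    exact Finset.sum_congr rfl fun b hb => by simp [hD, Finset.mem_of_mem_erase hb]
  refine ⟨?_, ?_⟩
  · have := m_grad_le (D := D) hl hh hD0 h1 ((valid_congr (fun _ _ => rfl) fun b hb =>
      hcong b (Finset.mem_of_mem_erase hb)).1 h2) c
    rw [hm] at this
    have e := hsum Z 1
    simp only [one_mul] at e
    rw [e] at this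
    linarith
  · have hback : ∀ b ∈ T, (fun u => Z u + a) b + -D b = Z b := fun b hb => by simp [hD, hb]
    have := m_grad_le (Z := fun u => Z u + a) (D := fun b => -D b) hl hh
      (fun b hb => by simp [hD0 b hb]) h2
      ((valid_congr (fun _ _ => rfl) fun b hb => hback b (Finset.mem_of_mem_erase hb)).2 h1) c
    rw [m_congr (h' := h) (Z' := Z) (fun _ _ _ => rfl)
      (fun b hb _ => hback b hb) c] at this
    have e := hsum (fun u => Z u + a) (-1)
    simp only [neg_mul, one_mul] at e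
    simp only [neg_mul] at this
    rw [Finset.sum_neg_distrib] at this e
    linarith

/-- `StmtLine`. -/
theorem lineStmt (T : Finset ι) (h : ι → Fin r → ℝ) (Z : ι → ℝ) (x : ι → ι → ℂ) (l : ι)
    (hh : IsLaw T h) (hl : l ∈ T) (hd : ∀ u, x u u = 0) (hv : Valid T h Z x) (a : ℝ) (ha : 0 ≤ a) :
    Phi T h Z x l - Phi T h (fun u => Z u + a) x l ≤ a * Irow T h Z x l ∧
      a * Irow T h (fun u => Z u + a) x l ≤ Phi T h Z x l - Phi T h (fun u => Z u + a) x l ∧
      Irow T h (fun u => Z u + a) x l ≤ Irow T h Z x l ∧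
      ∀ c, 0 < h l c → m T l h c Z x - m T l h c (fun u => Z u + a) x
        ≤ a * (Z l ^ 2 * Irow T h Z x l / h l c) := by
  have hv' := hv.shift hh ha
  have hx := hv.herm
  set t := tw T h Z x l with ht
  set t' := tw T h (fun u => Z u + a) x l with ht'
  have htp : 0 < t := tw_pos hl hh hv
  have ht'p : 0 < t' := tw_pos hl hh hv'
  have hI : 0 ≤ Irow T h Z x l := Irow_nonneg hl hh hx
  have hI' : 0 ≤ Irow T h (fun u => Z u + a) x l := Irow_nonneg hl hh hx
  have hmono : t ≤ t' := by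
    have := tw_add_le (Z' := fun u => Z u + a) hl hh hv fun b _ => by linarith
    simp only [← ht, ← ht'] at this
    linarith
  have hdiff : t' - t = a + ∑ c, h l c * (m T l h c Z x - m T l h c (fun u => Z u + a) x) := by
    simp only [ht, ht', tw, mul_sub, Finset.sum_sub_distrib]
    ring
  have hup : t' - t ≤ a * (t ^ 2 * Irow T h Z x l) := by
    rw [hdiff, ht, tw_sq_mul_Irow hl hh hv, mul_add, mul_one, Finset.mul_sum]
    refine add_le_add le_rfl (Finset.sum_le_sum fun c _ => ?_)
    rw [mul_left_comm]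
    exact mul_le_mul_of_nonneg_left (m_line hl hh hv ha c).1 ((hh l hl).1 c)
  have hlow : a * (t' ^ 2 * Irow T h (fun u => Z u + a) x l) ≤ t' - t := by
    rw [hdiff, ht', tw_sq_mul_Irow hl hh hv', mul_add, mul_one, Finset.mul_sum]
    refine add_le_add le_rfl (Finset.sum_le_sum fun c _ => ?_)
    rw [mul_left_comm]
    exact mul_le_mul_of_nonneg_left (m_line hl hh hv ha c).2 ((hh l hl).1 c)
  have hPhi : Phi T h Z x l - Phi T h (fun u => Z u + a) x l = (t' - t) / (t * t') := by
    rw [Phi_eq_inv_tw hl hh hv, Phi_eq_inv_tw hl hh hv', ← ht, ← ht']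
    field_simp
  have hA : Phi T h Z x l - Phi T h (fun u => Z u + a) x l ≤ a * Irow T h Z x l := by
    rw [hPhi, div_le_iff₀ (mul_pos htp ht'p)]
    refine hup.trans ?_
    nlinarith [mul_nonneg (mul_nonneg (mul_nonneg ha hI) htp.le) (sub_nonneg.2 hmono)]
  have hB : a * Irow T h (fun u => Z u + a) x l
      ≤ Phi T h Z x l - Phi T h (fun u => Z u + a) x l := by
    rw [hPhi, le_div_iff₀ (mul_pos htp ht'p)]
    refine le_trans ?_ hlow
    nlinarith [mul_nonneg (mul_nonneg (mul_nonneg ha hI') ht'p.le) (sub_nonneg.2 hmono)]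
  refine ⟨hA, hB, ?_, fun c hc => ?_⟩
  · rcases ha.lt_or_eq with hpos | heq
    · exact le_of_mul_le_mul_left (hB.trans hA) hpos
    · subst heq; simp
  · refine (m_line hl hh hv ha c).1.trans (mul_le_mul_of_nonneg_left ?_ ha)
    rw [le_div_iff₀ hc, mul_comm]
    refine (sum_dm_le hl hh hv c).trans (mul_le_mul_of_nonneg_right ?_ hI)
    exact pow_le_pow_left₀ htp.le (tw_le hl hh hv (hd l)) 2

end Vale.Agent.P078.Local
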