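import Vale.Agent.P078.Local.Slice.Basic
import Vale.Agent.P078.Local.Approx.Tail
import Vale.Agent.P078.Local.Graph.Glue

/-!
# Slice/Tail: replacing a set by a ball
-/

noncomputable section

namespace Vale.Agent.P078.Local.Slice

open Vale.Agent.P078.Local
open scoped ComplexConjugate

variable {ι : Type*} [Fintype ι] [DecidableEq ι] {r : ℕ}

/-- The rows of a Hermitian contraction with zero diagonal have norm at most one. -/
theorem row_normSq_le {x : ι → ι → ℂ} (hx : IsHerm x) (hd : ∀ u, x u u = 0)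
    (hop : OpLe Finset.univ x 1) (l : ι) : ∑ k, Complex.normSq (x l k) ≤ 1 := by
  set a := ∑ k, Complex.normSq (x l k) with ha
  set w : ι → ℂ := fun k => conj (x l k) with hw
  set Q := ∑ i, ∑ j, conj (w i) * x i j * w j with hQ
  have hwl : w l = 0 := by simp [hw, hd l]
  have ha' : (a : ℂ) = ∑ k, x l k * w k := by
    rw [ha, Complex.ofReal_sum]
    exact Finset.sum_congr rfl fun k _ => (Complex.mul_conj _).symm
  have ha'' : (a : ℂ) = ∑ i, conj (w i) * x i l := by
    rw [ha']
    exact Finset.sum_congr rfl fun k _ => by simp [hw, hx l k, ← hx k l, mul_comm]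
  have hb : ∀ t : ℝ, |(2 * (t : ℂ) * a + Q).re| ≤ t ^ 2 + a := by
    intro t
    have hv := hop fun k => (if k = l then (t : ℂ) else 0) + w k
    have e1 : ∑ i, ∑ j, conj ((if i = l then (t : ℂ) else 0) + w i) * x i j
        * ((if j = l then (t : ℂ) else 0) + w j) = 2 * (t : ℂ) * a + Q := by
      set e : ι → ℂ := fun k => if k = l then (t : ℂ) else 0 with he
      have hx1 : ∀ i j, conj (e i + w i) * x i j * (e j + w j)
          = conj (e i) * (x i j * e j) + conj (e i) * (x i j * w j)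
            + conj (w i) * x i j * e j + conj (w i) * x i j * w j := fun i j => by
        rw [map_add]; ring
      have s1 : ∑ i, ∑ j, conj (e i) * (x i j * e j) = 0 := by
        rw [Finset.sum_eq_single l (fun i _ hi => by simp [he, hi]) (by simp),
          Finset.sum_eq_single l (fun i _ hi => by simp [he, hi]) (by simp), hd l]
        simp
      have s2 : ∑ i, ∑ j, conj (e i) * (x i j * w j) = (t : ℂ) * a := by
        rw [Finset.sum_eq_single l (fun i _ hi => by simp [he, hi]) (by simp), ← Finset.mul_sum,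
          ← ha']
        simp [he]
      have s3 : ∑ i, ∑ j, conj (w i) * x i j * e j = (t : ℂ) * a := by
        rw [ha'', Finset.mul_sum]
        refine Finset.sum_congr rfl fun i _ => ?_
        rw [Finset.sum_eq_single l (fun j _ hj => by simp [he, hj]) (by simp)]
        simp [he, mul_comm]
      calc _ = ∑ i, ∑ j, (conj (e i) * (x i j * e j) + conj (e i) * (x i j * w j)
            + conj (w i) * x i j * e j + conj (w i) * x i j * w j) :=
          Finset.sum_congr rfl fun i _ => Finset.sum_congr rfl fun j _ => hx1 i j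
        _ = _ := by
          simp only [Finset.sum_add_distrib]
          rw [s1, s2, s3, ← hQ]
          ring
    have e2 : ∑ k, Complex.normSq ((if k = l then (t : ℂ) else 0) + w k) = t ^ 2 + a := by
      rw [← Finset.add_sum_erase _ _ (Finset.mem_univ l), ha,
        ← Finset.add_sum_erase _ (fun k => Complex.normSq (x l k)) (Finset.mem_univ l)]
      simp only [if_true, hwl, add_zero, Complex.normSq_ofReal, hd l, map_zero, zero_add, ← sq]
      congr 1
      exact Finset.sum_congr rfl fun k hk => by simp [Finset.ne_of_mem_erase hk, hw]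
    rw [e1, e2, one_mul] at hv
    exact hv
  have ha0 : 0 ≤ a := Finset.sum_nonneg fun k _ => Complex.normSq_nonneg _
  have h1 := (abs_le.1 (hb (Real.sqrt a))).2
  have h2 := (abs_le.1 (hb (-Real.sqrt a))).1
  have hre : ∀ t : ℝ, (2 * (t : ℂ) * a + Q).re = 2 * t * a + Q.re := fun t => by
    simp [mul_assoc]
  rw [hre, Real.sq_sqrt ha0] at h1
  rw [hre, neg_sq, Real.sq_sqrt ha0] at h2
  by_contra hlt
  have hlt' : 1 < Real.sqrt a := by rw [Real.lt_sqrt zero_le_one, one_pow]; exact not_le.1 hlt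
  nlinarith [mul_lt_mul_of_pos_right hlt' (zero_lt_one.trans (not_le.1 hlt))]

/-- The exponential of `Approx/Tail` at `L = 6` is below `tailB`. -/
theorem tail_le {g : ℝ} (hg : 0 < g) (hg1 : g ≤ 1) {R : ℕ} (hR : 1 ≤ R) :
    4 * Real.exp (-(((R - 1 : ℕ) : ℝ) * Real.sqrt (g / 6))) / g ≤ tailB R g := by
  have hR' : ((R - 1 : ℕ) : ℝ) = (R : ℝ) - 1 := by
    rw [Nat.cast_sub hR, Nat.cast_one]
  set u := Real.sqrt (g / 8) with hu
  have hu0 : 0 ≤ u := Real.sqrt_nonneg _
  have hu1 : u ≤ 1 / 2 := Real.sqrt_le_iff.2 ⟨by norm_num, by linarith⟩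
  have hu6 : u ≤ Real.sqrt (g / 6) := Real.sqrt_le_sqrt (by linarith)
  have hexp : Real.exp (1 / 2 : ℝ) ≤ 2 := by
    have h1 := Real.exp_one_lt_d9
    have h2 : Real.exp (1 / 2 : ℝ) * Real.exp (1 / 2) = Real.exp 1 := by
      rw [← Real.exp_add]; norm_num
    nlinarith [Real.exp_pos (1 / 2 : ℝ)]
  have hle : Real.exp (-(((R - 1 : ℕ) : ℝ) * Real.sqrt (g / 6)))
      ≤ 2 * Real.exp (-((R : ℝ) * u)) := by
    refine (Real.exp_le_exp.2 (?_ : _ ≤ 1 / 2 + -((R : ℝ) * u))).trans ?_
    · rw [hR']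
      have : (1 : ℝ) ≤ R := by exact_mod_cast hR
      nlinarith [mul_le_mul_of_nonneg_left hu6 (by linarith : (0 : ℝ) ≤ (R : ℝ) - 1)]
    · rw [Real.exp_add]
      exact mul_le_mul_of_nonneg_right hexp (Real.exp_pos _).le
  rw [tailB, ← hu, div_mul_eq_mul_div]
  exact div_le_div_of_nonneg_right (by linarith) hg.le

/-- Replacing a set by the ball of radius `R` costs `tailB R g`. -/
theorem tail (D : ℕ) (N : Net ι D) (s : Bool) (S : Finset ι) (h : ι → Fin r → ℝ) (Z : ι → ℝ)
    (l : ι) (R : ℕ) (g : ℝ) (hh : IsLaw S h) (hR : 4 ≤ R) (hg : 0 < g) (hg1 : g ≤ 1)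
    (hZ : ∀ u ∈ S, Z u ≤ 4) (hB : N.ball l R ⊆ S)
    (hv : Valid S h (fun u => Z u - g) (N.xs s)) :
    Phi S h Z (N.xs s) l ≤ Phi (N.ball l R) h Z (N.xs s) l + tailB R g ∧
      ∀ c, m S l h c Z (N.xs s) ≤ m (N.ball l R) l h c Z (N.xs s) + tailB R g := by
  have hlB : l ∈ N.ball l R := N.mem_ball_self l R
  have hadj : ∀ i ∈ S, ∀ j ∈ S, i ≠ j → N.xs s i j ≠ 0 → N.graph.Adj i j :=
    fun i _ j _ hij hx => N.xs_adj hij hx
  have hball : ∀ v ∈ S, ∀ p : N.graph.Walk l v, p.length ≤ R → v ∈ N.ball l R :=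
    fun v _ p hp => N.mem_ball_of_walk_le p hp
  have hL : Valid S h (fun u => 6 - Z u) (-(N.xs s)) := by
    refine valid_of_quad hh (fun a b => by simp [N.xs_herm s a b]) fun v hv0 => ?_
    set v' : ι → ℂ := fun a => if ha : a ∈ S then v ⟨a, ha⟩ else 0 with hv'
    have hq := (abs_le.1 (OpLe.mono (N.opLe_xs s) (Finset.subset_univ S) v')).1
    obtain ⟨a₀, ha₀⟩ := Function.ne_iff.1 hv0
    have hpos : 0 < ∑ a : S, Complex.normSq (v a) := Finset.sum_pos'
      (fun _ _ => Complex.normSq_nonneg _)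
      ⟨a₀, Finset.mem_univ _, Complex.normSq_pos.2 (by simpa using ha₀)⟩
    have e1 : ∀ a : S, v' a = v a := fun a => by simp [hv']
    have e2 : ∑ a : S, ∑ b : S, conj (v a) * (-(N.xs s)) a b * v b
        = -∑ a ∈ S, ∑ b ∈ S, conj (v' a) * N.xs s a b * v' b := by
      rw [← Finset.sum_coe_sort S, ← Finset.sum_neg_distrib]
      refine Finset.sum_congr rfl fun a _ => ?_
      rw [← Finset.sum_coe_sort S, ← Finset.sum_neg_distrib]
      exact Finset.sum_congr rfl fun b _ => by simp [e1]
    have e3 : ∑ a ∈ S, Complex.normSq (v' a) = ∑ a : S, Complex.normSq (v a) := by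
      rw [← Finset.sum_coe_sort S]
      exact Finset.sum_congr rfl fun a _ => by rw [e1]
    have h2 : ∑ a : S, 2 * Complex.normSq (v a) ≤ ∑ a : S, (6 - Z a) * Complex.normSq (v a) :=
      Finset.sum_le_sum fun a _ =>
        mul_le_mul_of_nonneg_right (by linarith [hZ a a.2]) (Complex.normSq_nonneg _)
    rw [← Finset.mul_sum] at h2
    rw [e3, one_mul] at hq
    rw [e2, Complex.neg_re]
    linarith
  have hg6 : g < 6 := by linarith
  have htail := tail_le hg hg1 (by omega : 1 ≤ R)
  constructor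
  · have := phi_tail hh hB hlB hadj hball hg hg6 (by omega) hv hL
    simp only [Phi]
    linarith [(abs_le.1 this).2]
  · intro c
    have hm := m_tail hh hB hlB hadj hball hg hg6 (by omega) (fun u _ => N.xs_diag s u) c hv hL
    have hmass : ∑ k ∈ S.erase l, h k c * Complex.normSq (N.xs s l k) ≤ 1 := by
      refine le_trans (Finset.sum_le_sum fun k hk => ?_)
        ((Finset.sum_le_univ_sum_of_nonneg fun k => Complex.normSq_nonneg _).trans
          (row_normSq_le (N.xs_herm s) (N.xs_diag s) (N.opLe_xs s) l))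
      have hk' := hh k (Finset.mem_of_mem_erase hk)
      exact mul_le_of_le_one_left (Complex.normSq_nonneg _)
        (hk'.2 ▸ Finset.single_le_sum (fun d _ => hk'.1 d) (Finset.mem_univ c))
    have hfac : 0 ≤ 4 * Real.exp (-(((R - 1 : ℕ) : ℝ) * Real.sqrt (g / 6))) / g := by positivity
    have h3 : 4 * (∑ k ∈ S.erase l, h k c * Complex.normSq (N.xs s l k))
        * Real.exp (-(((R - 1 : ℕ) : ℝ) * Real.sqrt (g / 6))) / g
        ≤ tailB R g := by
      refine le_trans (le_of_eq ?_) ((mul_le_of_le_one_left hfac hmass).trans htail)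
      ring
    linarith [(abs_le.1 hm).2]

end Vale.Agent.P078.Local.Slice
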