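import Vale.Agent.P078.Local.Jump.Triangle
import Vale.Agent.P078.Local.Jump.Order

/-!
# The exact jump with the triangle bound (`StmtJump`)
-/

namespace Vale.Agent.P078.Local

variable {ι : Type*} [DecidableEq ι] {r : ℕ}

/-- `StmtJump`. -/
theorem jumpStmt (T : Finset ι) (h : ι → Fin r → ℝ) (Z : ι → ℝ) (x : ι → ι → ℂ) (w : ι)
    (ξ : Fin r → ℝ) (a : ℝ) (hh : IsLaw T h) (hw : w ∈ T) (hd : ∀ u, x u u = 0)
    (hval : Valid T h Z x) (hZ : Z w ≤ 2) (hsum : ∑ c, ξ c = 0) (hξ : ∀ c, |ξ c| ≤ a)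
    (hsupp : ∀ c, ξ c ≠ 0 → 1 / (4 * (r : ℝ)) + a ≤ h w c) :
    let h1 := fun σ : ℝ => Function.update h w (fun c => h w c + σ * ξ c)
    let Z1 := fun σ : ℝ => Function.update Z w (Z w + σ * ∑ c, ξ c * m T w h c Z x)
    (∀ σ ∈ ({1, -1} : Set ℝ), IsLaw T (h1 σ) ∧ Valid T (h1 σ) (Z1 σ) x) ∧
    (∀ l ∈ T, Phi T (h1 1) (Z1 1) x l + Phi T (h1 (-1)) (Z1 (-1)) x l = 2 * Phi T h Z x l) ∧
    ∀ l ∈ T, ∀ u ∈ T, ∃ L Q : ℝ,
      |L| ≤ 80 * (r : ℝ) ^ 2 * a *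
          (Real.sqrt (W T h Z x l u * W T h Z x l w * W T h Z x w u)
            + W T h Z x l w * W T h Z x w u) ∧
      |Q| ≤ 80 * (r : ℝ) ^ 2 * a ^ 2 * (W T h Z x l w * W T h Z x w u) ∧
      ∀ σ ∈ ({1, -1} : Set ℝ), W T (h1 σ) (Z1 σ) x l u = W T h Z x l u + σ * L + Q := by
  intro h1 Z1
  have hr : 0 < r := by
    rcases Nat.eq_zero_or_pos r with rfl | hr
    · simpa using (hh w hw).2
    · exact hr
  have hr1 : (1 : ℝ) ≤ r := by exact_mod_cast hr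
  have ha : 0 ≤ a := (abs_nonneg _).trans (hξ ⟨0, hr⟩)
  set h₀ : ℝ := 1 / (4 * (r : ℝ)) with hh₀
  have h0 : 0 < h₀ := by positivity
  have hlaw : ∀ σ : ℝ, |σ| = 1 → IsLaw T (jumpH h w σ ξ) := fun σ hσ =>
    jump_isLaw hh hsum fun c => by
      rcases eq_or_ne (ξ c) 0 with hc | hc
      · simp [hc, (hh w hw).1 c]
      · have h2 : |σ * ξ c| ≤ a := by rw [abs_mul, hσ, one_mul]; exact hξ c
        linarith [hsupp c hc, (abs_le.1 h2).1]
  have hσ : ∀ σ ∈ ({1, -1} : Set ℝ), |σ| = 1 := by rintro σ (rfl | rfl) <;> simp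
  have eh : ∀ σ, h1 σ = jumpH h w σ ξ := fun σ => rfl
  have eZ : ∀ σ, Z1 σ = jumpZ T h Z x w σ ξ := fun σ => rfl
  simp only [eh, eZ]
  refine ⟨fun σ hm => ⟨hlaw σ (hσ σ hm), jump_valid hw hh (hlaw σ (hσ σ hm)) hval⟩,
    fun l hl => ?_, fun l hl u hu => ?_⟩
  · rw [jump_Phi hw hl hh (hlaw 1 abs_one) hval, jump_Phi hw hl hh (hlaw (-1) (by simp)) hval]
    split_ifs <;> ring
  · set v : Fin r → ℝ := fun c => ξ c / a with hv
    have hva : ∀ c, a * v c = ξ c := by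
      intro c
      rcases eq_or_ne a 0 with h' | h'
      · have := hξ c; rw [h', abs_nonpos_iff] at this; simp [h', this]
      · simp only [hv]; field_simp
    have hv1 : ∀ c, |v c| ≤ 1 := by
      intro c
      rw [hv, abs_div, abs_of_nonneg ha]
      exact div_le_one_of_le₀ (hξ c) ha
    have hvs : ∀ c, v c ≠ 0 → h₀ ≤ h w c := fun c hc => by
      have : ξ c ≠ 0 := fun h' => hc (by simp [hv, h'])
      linarith [hsupp c this]
    have hH : ∀ σ, jumpH h w σ ξ = jumpH h w (σ * a) v := fun σ => by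
      simp only [jumpH, mul_assoc, hva]
    have hZJ : ∀ σ, jumpZ T h Z x w σ ξ = jumpZ T h Z x w (σ * a) v := fun σ => by
      simp only [jumpZ, mul_assoc, Finset.mul_sum, ← mul_assoc a, hva]
    obtain ⟨hL, hQ⟩ := jump_coeff_le hw hl hu hh hval h0 hv1 hvs
    have ht0 := (tw_pos hw hh hval).le
    have ht2 : tw T h Z x w ≤ 2 := (tw_le hw hh hval (hd w)).trans hZ
    have hWW : 0 ≤ W T h Z x l w * W T h Z x w u :=
      mul_nonneg (W_nonneg hl hw hh hval.herm) (W_nonneg hw hu hh hval.herm)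
    have ht4 : tw T h Z x w ^ 2 ≤ 4 := by nlinarith
    have hcoef1 : 2 * tw T h Z x w / h₀ ≤ 80 * (r : ℝ) ^ 2 := by
      rw [hh₀, div_div_eq_mul_div, div_one]; nlinarith
    have hcoef2 : 4 * tw T h Z x w ^ 2 / h₀ ≤ 80 * (r : ℝ) ^ 2 := by
      rw [hh₀, div_div_eq_mul_div, div_one]; nlinarith
    have hcoef3 : tw T h Z x w ^ 2 / h₀ ^ 2 ≤ 80 * (r : ℝ) ^ 2 := by
      rw [hh₀, one_div, inv_pow, div_inv_eq_mul]; nlinarith
    refine ⟨a * jumpL T w h Z x v l u, a ^ 2 * jumpQ T w h Z x v l u, ?_, ?_, fun σ hm => ?_⟩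
    · rw [abs_mul, abs_of_nonneg ha]
      refine (mul_le_mul_of_nonneg_left (hL.trans (add_le_add
        (mul_le_mul_of_nonneg_right hcoef1 (Real.sqrt_nonneg _))
        (mul_le_mul_of_nonneg_right hcoef2 hWW))) ha).trans (le_of_eq ?_)
      ring
    · rw [abs_mul, abs_of_nonneg (sq_nonneg a)]
      refine (mul_le_mul_of_nonneg_left (hQ.trans (mul_le_mul_of_nonneg_right hcoef3 hWW))
        (sq_nonneg a)).trans (le_of_eq ?_)
      ring
    · have hlw := hlaw σ (hσ σ hm)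
      rw [hH] at hlw ⊢
      rw [hZJ, jump_W hw hl hu hh hlw hval]
      rcases hm with rfl | rfl <;> ring

end Vale.Agent.P078.Local
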