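import Vale.Agent.P078.Local.Slice.Basic

/-!
# Slice/Order: signs and monotonicity
-/

namespace Vale.Agent.P078.Local.Slice

open Vale.Agent.P078.Local

variable {ι : Type*} [DecidableEq ι] {r : ℕ}

/-- Signs and monotonicity of `Φ`, `W` and `m` at a valid point. -/
theorem order (T U : Finset ι) (h : ι → Fin r → ℝ) (Z Z' : ι → ℝ) (x : ι → ι → ℂ) (l u : ι)
    (hh : IsLaw T h) (hU : U ⊆ T) (hl : l ∈ U) (hu : u ∈ T) (hd : ∀ v, x v v = 0)
    (hv : Valid T h Z x) (hle : ∀ v ∈ T, Z v ≤ Z' v) :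
    0 < Phi T h Z x l ∧ 1 / Z l ≤ Phi T h Z x l ∧ 0 ≤ W T h Z x l u ∧
      W T h Z x l u = W T h Z x u l ∧ Phi T h Z' x l ≤ Phi T h Z x l ∧
      Phi U h Z x l ≤ Phi T h Z x l ∧ (∀ c, m U l h c Z x ≤ m T l h c Z x) ∧
      ∀ g : ℝ, 0 < g → Valid T h (fun v => Z v - g) x → Phi T h Z x l ≤ 1 / g :=
  ⟨phi_pos hh (hU hl) hv, inv_le_phi hh (hU hl) hv (hd l), W_nonneg hh (hU hl) hu hv.herm,
    W_comm l u, phi_anti hh (hU hl) hv hle, phi_mono_set hh hU hl hv,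
    m_mono_set hh hU hl (hv.erase hh (hU hl)), fun _ hg => phi_le_inv_margin hh (hU hl) hg⟩

end Vale.Agent.P078.Local.Slice
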