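import Vale.Agent.P078.Local.Def.Slice
import Vale.Agent.P078.Local.Stable.Glue

/-!
# Signs and monotonicity of the resolvent of a valid point
-/

namespace Vale.Agent.P078.Local.Slice

open Vale.Agent.P078.Local

variable {ι : Type*} [DecidableEq ι] {r : ℕ}
variable {T U : Finset ι} {h : ι → Fin r → ℝ} {Z Z' : ι → ℝ} {x : ι → ι → ℂ} {l u : ι}

/-- `Φ_l` is the inverse of the gap at `l`. -/
theorem phi_eq_inv (hh : IsLaw T h) (hl : l ∈ T) (hv : Valid T h Z x) :
    Phi T h Z x l = (Z l - ∑ c, h l c * m T l h c Z x)⁻¹ := by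
  have hne := ((hv.erase hh hl).pos (hh.mono (Finset.erase_subset _ _))).ne'
  rw [Phi, qR_eq hl hh hne, div_mul_eq_div_div, div_self hne, one_div]

theorem phi_pos (hh : IsLaw T h) (hl : l ∈ T) (hv : Valid T h Z x) : 0 < Phi T h Z x l :=
  div_pos ((hv.erase hh hl).pos (hh.mono (Finset.erase_subset _ _))) (hv.pos hh)

theorem sum_m_nonneg (hh : IsLaw T h) (hl : l ∈ T) (hv : Valid T h Z x) (hd : x l l = 0) :
    0 ≤ ∑ c, h l c * m T l h c Z x :=
  Finset.sum_nonneg fun c _ => mul_nonneg ((hh l hl).1 c) (m_nonneg hl hh (hv.erase hh hl) hd c)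

theorem level_pos (hh : IsLaw T h) (hl : l ∈ T) (hv : Valid T h Z x) (hd : x l l = 0) :
    0 < Z l :=
  (sum_m_nonneg hh hl hv hd).trans_lt (sum_m_lt hl hh hv)

theorem inv_le_phi (hh : IsLaw T h) (hl : l ∈ T) (hv : Valid T h Z x) (hd : x l l = 0) :
    1 / Z l ≤ Phi T h Z x l := by
  rw [phi_eq_inv hh hl hv, one_div]
  exact inv_anti₀ (sub_pos.2 (sum_m_lt hl hh hv)) (by linarith [sum_m_nonneg hh hl hv hd])

theorem W_comm (l u : ι) : W T h Z x l u = W T h Z x u l := by
  rcases eq_or_ne l u with rfl | hne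
  · rfl
  · simp [W, hne, Ne.symm hne, Finset.erase_right_comm (a := l), mul_comm]

theorem W_nonneg (hh : IsLaw T h) (hl : l ∈ T) (hu : u ∈ T) (hx : IsHerm x) :
    0 ≤ W T h Z x l u := by
  rcases eq_or_ne l u with rfl | hne
  · rw [W, if_pos rfl]; exact sq_nonneg _
  · rw [W, if_neg hne]
    exact div_nonneg (sub_nonneg.2 (rayleigh hh hl hu hne hx Z)) (sq_nonneg _)

theorem Irow_nonneg (hh : IsLaw T h) (hl : l ∈ T) (hx : IsHerm x) : 0 ≤ Irow T h Z x l :=
  Finset.sum_nonneg fun _ hu => W_nonneg hh hl hu hx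

/-- The Schur complements grow with the set. -/
theorem m_mono_set (hh : IsLaw T h) (hU : U ⊆ T) (hl : l ∈ U) (hv : Valid (T.erase l) h Z x)
    (c : Fin r) : m U l h c Z x ≤ m T l h c Z x := by
  refine le_of_forall_gt_imp_ge_of_dense fun w hw => ?_
  have hupd : ∀ V : Finset ι, m V l h c (Function.update Z l w) x = m V l h c Z x := fun V =>
    m_congr (fun _ _ _ => rfl) (fun v _ hne => by simp [Function.update_of_ne hne]) c
  have hval : Valid T (pure h l c) (Function.update Z l w) x := by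
    refine (valid_pure_iff (hU hl) hh c).2 ⟨(valid_congr (fun _ _ => rfl) fun v hv => by
      simp [Function.update_of_ne (Finset.ne_of_mem_erase hv)]).1 hv, ?_⟩
    rw [hupd, Function.update_self]
    exact hw
  have := ((valid_pure_iff hl (hh.mono hU) c).1 (hval.subset (hh.pure l c) hU)).2
  rw [hupd, Function.update_self] at this
  exact this.le

/-- `Φ` decreases in the point. -/
theorem phi_anti (hh : IsLaw T h) (hl : l ∈ T) (hv : Valid T h Z x) (hle : ∀ v ∈ T, Z v ≤ Z' v) :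
    Phi T h Z' x l ≤ Phi T h Z x l := by
  rw [phi_eq_inv hh hl hv, phi_eq_inv hh hl (hv.mono hh hle)]
  refine inv_anti₀ (sub_pos.2 (sum_m_lt hl hh hv)) ?_
  have := Finset.sum_le_sum fun c (_ : c ∈ Finset.univ) => mul_le_mul_of_nonneg_left
    (m_antitone hl hh (hv.erase hh hl) (fun v hv' _ => hle v hv') c) ((hh l hl).1 c)
  linarith [hle l hl]

/-- `Φ` grows with the set. -/
theorem phi_mono_set (hh : IsLaw T h) (hU : U ⊆ T) (hl : l ∈ U) (hv : Valid T h Z x) :
    Phi U h Z x l ≤ Phi T h Z x l := by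
  rw [phi_eq_inv hh (hU hl) hv, phi_eq_inv (hh.mono hU) hl (hv.subset hh hU)]
  refine inv_anti₀ (sub_pos.2 (sum_m_lt (hU hl) hh hv)) ?_
  have := Finset.sum_le_sum fun c (_ : c ∈ Finset.univ) => mul_le_mul_of_nonneg_left
    (m_mono_set hh hU hl (hv.erase hh (hU hl)) c) ((hh l (hU hl)).1 c)
  linarith

/-- A margin `g` bounds `Φ` by `1 / g`. -/
theorem phi_le_inv_margin (hh : IsLaw T h) (hl : l ∈ T) {g : ℝ} (hg : 0 < g)
    (hv : Valid T h (fun v => Z v - g) x) : Phi T h Z x l ≤ 1 / g := by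
  have hv' : Valid T h Z x := hv.mono hh fun v _ => sub_le_self _ hg.le
  rw [phi_eq_inv hh hl hv', one_div]
  refine inv_anti₀ hg ?_
  have := Finset.sum_le_sum fun c (_ : c ∈ Finset.univ) => mul_le_mul_of_nonneg_left
    (m_antitone (Z' := Z) hl hh (hv.erase hh hl) (fun v _ _ => sub_le_self _ hg.le) c)
    ((hh l hl).1 c)
  linarith [sum_m_lt hl hh hv]

end Vale.Agent.P078.Local.Slice
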